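import Mathlib

/-! P147: an event invariant under coordinate maps that push finite sets away has probability
zero or one for a product measure. -/

namespace Vale.Agent.P147

open MeasureTheory ProbabilityTheory Set
open scoped symmDiff

variable {ι X : Type*} [MeasurableSpace X] (m : Measure X) [IsProbabilityMeasure m]

lemma measurePreserving_reindex {σ : ι → ι} (hσ : Function.Injective σ) :
    MeasurePreserving (fun (ω : ι → X) i => ω (σ i)) (Measure.infinitePi fun _ : ι => m)
      (Measure.infinitePi fun _ : ι => m) :=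
  ⟨by fun_prop, Measure.map_infinitePi_infinitePi_of_inj (P := fun _ : ι => m) hσ⟩

theorem zero_or_one_of_shift_invariant {E : Set (ι → X)} (hE : MeasurableSet E)
    (h : ∀ F : Finset ι, ∃ σ : ι → ι, Function.Injective σ ∧ (∀ i ∈ F, σ i ∉ F) ∧
      (fun ω i => ω (σ i)) ⁻¹' E =ᵐ[Measure.infinitePi fun _ : ι => m] E) :
    (Measure.infinitePi fun _ : ι => m) E = 0 ∨ (Measure.infinitePi fun _ : ι => m) E = 1 := by
  classical
  set P := Measure.infinitePi fun _ : ι => m with hP
  have key : ∀ ε > (0 : ℝ), |P.real E - P.real E * P.real E| ≤ 5 * ε := by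
    intro ε hε
    obtain ⟨C, hC, hCE⟩ := (Measure.MeasureDense.of_generateFrom_isSetAlgebra_finite (μ := P)
      isSetAlgebra_measurableCylinders generateFrom_measurableCylinders.symm).approx E hE
      (measure_ne_top _ _) ε hε
    have hCE' : P.real (E ∆ C) ≤ ε := by
      have h1 := (ENNReal.toReal_le_toReal (measure_ne_top P _) ENNReal.ofReal_ne_top).2 hCE.le
      rwa [ENNReal.toReal_ofReal hε.le] at h1
    obtain ⟨F, S, hS, rfl⟩ := (mem_measurableCylinders C).1 hC
    obtain ⟨σ, hσ, hF, hinv⟩ := h F
    set T : (ι → X) → (ι → X) := fun ω i => ω (σ i) with hT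
    have hTm : Measurable T := by fun_prop
    have hmp : MeasurePreserving T P P := measurePreserving_reindex m hσ
    set C : Set (ι → X) := cylinder (α := fun _ : ι => X) F S with hCdef
    have hCm : MeasurableSet C := MeasurableSet.cylinder F hS
    have hTC : P.real (T ⁻¹' C) = P.real C := by
      simp only [measureReal_def]; rw [hmp.measure_preimage hCm.nullMeasurableSet]
    have hprod : P.real (C ∩ T ⁻¹' C) = P.real C * P.real C := by
      have hind : iIndepFun (fun (i : ι) (ω : ι → X) => ω i) P :=
        iIndepFun_infinitePi (P := fun _ : ι => m) (X := fun _ x => x) (fun _ => measurable_id)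
      have hdis : Disjoint F (F.image σ) := by
        rw [Finset.disjoint_left]
        intro i hi hi'
        obtain ⟨j, hj, rfl⟩ := Finset.mem_image.1 hi'
        exact hF j hj hi
      have h2 := hind.indepFun_finset F (F.image σ) hdis (fun i => measurable_pi_apply i)
      set g : ((i : (F.image σ : Finset ι)) → X) → ((i : F) → X) := fun z i =>
        z ⟨σ i, Finset.mem_image_of_mem σ i.2⟩ with hg
      have hgm : Measurable g := by fun_prop
      have h3 := h2.measure_inter_preimage_eq_mul S (g ⁻¹' S) hS (hgm hS)
      have e1 : T ⁻¹' C = (fun ω (i : (F.image σ : Finset ι)) => ω i) ⁻¹' (g ⁻¹' S) := by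
        ext ω; simp [hT, hCdef, hg, cylinder]; rfl
      have e2 : C = (fun ω (i : F) => ω i) ⁻¹' S := rfl
      have h4 : P (C ∩ T ⁻¹' C) = P C * P (T ⁻¹' C) := by rw [e1, e2]; exact h3
      simp only [measureReal_def, h4, ENNReal.toReal_mul,
        hmp.measure_preimage hCm.nullMeasurableSet]
    have hA : |P.real E - P.real C| ≤ ε := by
      refine le_trans (abs_measureReal_sub_le_measureReal_symmDiff hE.nullMeasurableSet
        hCm.nullMeasurableSet) hCE'
    have hTE : P.real ((T ⁻¹' E) ∆ (T ⁻¹' C)) ≤ ε := by
      rw [show (T ⁻¹' E) ∆ (T ⁻¹' C) = T ⁻¹' (E ∆ C) from rfl, measureReal_def,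
        hmp.measure_preimage (hE.symmDiff hCm).nullMeasurableSet]
      exact hCE'
    have hB : |P.real E - P.real (C ∩ T ⁻¹' C)| ≤ 2 * ε := by
      have e : P.real (E ∩ T ⁻¹' E) = P.real E := by
        refine measureReal_congr ?_
        filter_upwards [hinv] with ω hω
        show (ω ∈ E ∧ T ω ∈ E) = (ω ∈ E)
        have hω' : (T ω ∈ E) = (ω ∈ E) := hω
        rw [hω']; simp
      rw [← e]
      refine le_trans (abs_measureReal_sub_le_measureReal_symmDiff
        (hE.inter (hTm hE)).nullMeasurableSet (hCm.inter (hTm hCm)).nullMeasurableSet) ?_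
      refine le_trans (measureReal_mono (s₂ := (E ∆ C) ∪ ((T ⁻¹' E) ∆ (T ⁻¹' C))) ?_) ?_
      · intro ω hω
        simp only [Set.mem_symmDiff, mem_inter_iff, mem_union] at hω ⊢
        tauto
      · refine le_trans (measureReal_union_le _ _) ?_
        linarith
    rw [hprod] at hB
    have h0 : 0 ≤ P.real E := measureReal_nonneg
    have h1 : P.real E ≤ 1 := measureReal_le_one
    have h0' : 0 ≤ P.real C := measureReal_nonneg
    have h1' : P.real C ≤ 1 := measureReal_le_one
    rw [abs_le] at hA hB ⊢
    constructor <;> nlinarith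
  have hz : P.real E - P.real E * P.real E = 0 := by
    by_contra hne
    have := key (|P.real E - P.real E * P.real E| / 10) (by positivity)
    have := abs_pos.2 hne
    linarith
  have hz' : P.real E * (1 - P.real E) = 0 := by linarith
  rcases mul_eq_zero.1 hz' with h0 | h1
  · exact Or.inl ((ENNReal.toReal_eq_zero_iff _).1 h0 |>.resolve_right (measure_ne_top _ _))
  · refine Or.inr ?_
    rw [← ENNReal.ofReal_toReal (measure_ne_top P E), ← measureReal_def,
      show P.real E = 1 by linarith, ENNReal.ofReal_one]

end Vale.Agent.P147
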