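import Mathlib

/-! P147: basic objects of random walk in an iid random environment on the lattice. -/

namespace Vale.Agent.P147

open MeasureTheory

/-- A site of the lattice `ℤ^d`. -/
abbrev Site (d : ℕ) := Fin d → ℤ

/-- The `2 d` coordinate unit steps, coded by an axis and a sign. -/
abbrev Dir (d : ℕ) := Fin d × Bool

/-- The lattice vector of a unit step. -/
def vec {d : ℕ} (e : Dir d) : Site d := Pi.single e.1 (if e.2 then 1 else -1)

/-- `P` is the annealed law from the origin of the walk in the iid environment with one-site law
`μ`: every finite path has the probability given by averaging the product of its steps. -/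
def IsAnnealed {d : ℕ} (μ : Measure (Dir d → ℝ)) (P : Measure (ℕ → Site d)) : Prop :=
  ∀ (n : ℕ) (x : ℕ → Site d),
    P {X | ∀ k ≤ n, X k = x k} =
      if x 0 = 0 then
        ∫⁻ ω, ∏ k ∈ Finset.range n,
            ∑ e : Dir d, (if x k + vec e = x (k + 1) then ENNReal.ofReal (ω (x k) e) else 0)
          ∂Measure.infinitePi (fun _ : Site d => μ)
      else 0

end Vale.Agent.P147
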