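import Vale.Agent.P147.Walk

/-! P147: existence, uniqueness and the annealed zero-one law. -/

namespace Vale.Agent.P147

open MeasureTheory Set Filter
open scoped Topology Classical

variable {d : ℕ} {v : Site d} {q : Dir d → ℝ}
variable (μ : Measure (Dir d → ℝ)) [IsProbabilityMeasure μ]

/-- The constructed annealed law. -/
noncomputable def law (v : Site d) (q : Dir d → ℝ) : Measure (ℕ → Site d) :=
  ((Measure.infinitePi fun _ : Site d => μ).prod (Measure.infinitePi fun _ : ℕ => noise v q)).map
    fun a n => traj v q a.1 a.2 0 n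

lemma measurable_path :
    Measurable fun a : (Site d → Dir d → ℝ) × (ℕ → Dir d × ℝ) => fun n => traj v q a.1 a.2 0 n :=
  measurable_pi_lambda _ (measurable_traj v q 0)

lemma measurableSet_prefix (n : ℕ) (x : ℕ → Site d) :
    MeasurableSet {X : ℕ → Site d | ∀ k ≤ n, X k = x k} := by
  rw [show {X : ℕ → Site d | ∀ k ≤ n, X k = x k} =
    ⋂ k ∈ Finset.range (n + 1), {X : ℕ → Site d | X k = x k} by ext X; simp]
  exact MeasurableSet.biInter (Finset.countable_toSet _) fun k _ =>
    (measurableSet_singleton (x k)).preimage (measurable_pi_apply (X := fun _ : ℕ => Site d) k)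

lemma prefix_iff (ω : Site d → Dir d → ℝ) (u : ℕ → Dir d × ℝ) {x : ℕ → Site d} (hx : x 0 = 0) :
    ∀ n, (∀ k ≤ n, traj v q ω u 0 k = x k) ↔
      ∀ k < n, x k + vec (step v q (ω (x k)) (u k)) = x (k + 1)
  | 0 => by simp [traj, hx]
  | n + 1 => by
    constructor
    · intro h k hk
      have h1 := h (k + 1) (by omega)
      rwa [traj, h k (by omega)] at h1
    · intro h k hk
      have ih := (prefix_iff ω u hx n).2 fun j hj => h j (by omega)
      rcases eq_or_lt_of_le hk with rfl | hk
      · rw [traj, ih n le_rfl]; exact h n (by omega)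
      · exact ih k (by omega)

variable {μ}

lemma isAnnealed_law (hv : v ≠ 0) (hμ : ∀ᵐ p ∂μ, Good v q p) :
    IsAnnealed μ (law μ v q) := by
  obtain ⟨p₀, hp₀⟩ := hμ.exists
  have := isProbabilityMeasure_noise hv hp₀
  intro n x
  rw [law, Measure.map_apply measurable_path (measurableSet_prefix n x)]
  by_cases hx : x 0 = 0
  · rw [if_pos hx, Measure.prod_apply (measurable_path (measurableSet_prefix n x))]
    have hall : ∀ᵐ ω ∂Measure.infinitePi (fun _ : Site d => μ), ∀ y, Good v q (ω y) :=
      ae_all_iff.2 fun y =>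
        (measurePreserving_eval_infinitePi (fun _ : Site d => μ) y).quasiMeasurePreserving.ae hμ
    refine lintegral_congr_ae ?_
    filter_upwards [hall] with ω hω
    set t : ℕ → Set (Dir d × ℝ) := fun k =>
      {z | step v q (ω (x k)) z ∈ (Finset.univ.filter fun e => x k + vec e = x (k + 1))}
    have hset : Prod.mk ω ⁻¹' ((fun a : (Site d → Dir d → ℝ) × (ℕ → Dir d × ℝ) =>
        fun m => traj v q a.1 a.2 0 m) ⁻¹' {X | ∀ k ≤ n, X k = x k}) =
        (↑(Finset.range n) : Set ℕ).pi t := by
      ext u
      simp only [mem_preimage, mem_ofPred_eq, prefix_iff ω u hx n, t, Set.mem_pi, Finset.coe_range,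
        mem_Iio, Finset.mem_filter, Finset.mem_univ, true_and]
    have ht : ∀ k, MeasurableSet (t k) := fun k =>
      ((measurable_step v q).comp (measurable_prodMk_left (x := ω (x k))))
        (Set.toFinite _).measurableSet
    rw [hset, Measure.infinitePi_pi _ fun k _ => ht k]
    refine Finset.prod_congr rfl fun k _ => ?_
    rw [noise_step_mem hv (hω (x k)), Finset.sum_filter]
  · rw [if_neg hx]
    have : (fun a : (Site d → Dir d → ℝ) × (ℕ → Dir d × ℝ) => fun m => traj v q a.1 a.2 0 m) ⁻¹'
        {X | ∀ k ≤ n, X k = x k} = ∅ := by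
      ext a
      simp only [mem_preimage, mem_ofPred_eq, mem_empty_iff_false, iff_false]
      intro h
      exact hx (h 0 (Nat.zero_le _)).symm
    rw [this, measure_empty]

lemma IsAnnealed.unique {P P' : Measure (ℕ → Site d)} (h : IsAnnealed μ P)
    (h' : IsAnnealed μ P') : P = P' := by
  set C : Set (Set (ℕ → Site d)) :=
    {∅} ∪ Set.range (fun a : ℕ × (ℕ → Site d) => {X | ∀ k ≤ a.1, X k = a.2 k}) with hC
  have hpi : IsPiSystem C := by
    rintro s hs t ht hne
    rcases hs with hs | ⟨⟨n, x⟩, rfl⟩
    · simp [mem_singleton_iff.1 hs] at hne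
    rcases ht with ht | ⟨⟨m, y⟩, rfl⟩
    · simp [mem_singleton_iff.1 ht] at hne
    obtain ⟨Z, hZ1, hZ2⟩ := hne
    simp only [mem_ofPred_eq] at hZ1 hZ2
    refine Or.inr ⟨(max n m, Z), ?_⟩
    ext X
    simp only [mem_ofPred_eq, mem_inter_iff]
    constructor
    · intro hX
      exact ⟨fun k hk => by rw [hX k (by omega), hZ1 k hk],
        fun k hk => by rw [hX k (by omega), hZ2 k hk]⟩
    · rintro ⟨hX1, hX2⟩ k hk
      by_cases hkn : k ≤ n
      · rw [hX1 k hkn, hZ1 k hkn]
      · rw [hX2 k (by omega), hZ2 k (by omega)]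
  have huniv : (Set.univ : Set (ℕ → Site d)) =
      ⋃ z : Site d, {X | ∀ k ≤ 0, X k = (fun _ : ℕ => z) k} := by
    ext X; simp
  have htot : P Set.univ = P' Set.univ := by
    rw [huniv]
    have hd : Pairwise (Function.onFun Disjoint
        fun z : Site d => {X : ℕ → Site d | ∀ k ≤ 0, X k = (fun _ : ℕ => z) k}) := by
      intro a b hab
      rw [Function.onFun, Set.disjoint_left]
      intro X hX hX'
      exact hab ((hX 0 le_rfl).symm.trans (hX' 0 le_rfl))
    rw [measure_iUnion hd fun z => measurableSet_prefix 0 _,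
      measure_iUnion hd fun z => measurableSet_prefix 0 _]
    exact tsum_congr fun z => (h 0 _).trans (h' 0 fun _ => z).symm
  have hfin : IsFiniteMeasure P := by
    refine ⟨?_⟩
    rw [huniv]
    refine lt_of_le_of_lt (measure_iUnion_le _) ?_
    rw [tsum_eq_single 0 fun z hz => by rw [h 0 fun _ => z, if_neg hz]]
    rw [h 0 fun _ => 0]
    simp
  have hgen : (inferInstance : MeasurableSpace (ℕ → Site d)) = MeasurableSpace.generateFrom C := by
    refine le_antisymm ?_ (MeasurableSpace.generateFrom_le ?_)
    · refine iSup_le fun k => ?_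
      rintro s ⟨S, -, rfl⟩
      have hone : ∀ z, MeasurableSet[MeasurableSpace.generateFrom C]
          {X : ℕ → Site d | X k = z} := by
        intro z
        have : {X : ℕ → Site d | X k = z} = ⋃ f : {f : Fin (k + 1) → Site d // f (Fin.last k) = z},
            {X | ∀ j ≤ k, X j = (fun j => if hj : j < k + 1 then f.1 ⟨j, hj⟩ else 0) j} := by
          ext X
          simp only [mem_ofPred_eq, mem_iUnion]
          constructor
          · intro hX
            exact ⟨⟨fun j => X j, by simpa using hX⟩, fun j hj => by simp [Nat.lt_succ_of_le hj]⟩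
          · rintro ⟨f, hf⟩
            have hk := hf k le_rfl
            simp only [Nat.lt_succ_self, dif_pos] at hk
            exact hk.trans f.2
        rw [this]
        exact MeasurableSet.iUnion fun f =>
          MeasurableSpace.measurableSet_generateFrom (Or.inr ⟨(k, _), rfl⟩)
      have : (fun X : ℕ → Site d => X k) ⁻¹' S = ⋃ z ∈ S, {X : ℕ → Site d | X k = z} := by
        ext X; simp
      rw [this]
      exact MeasurableSet.biUnion (Set.to_countable _) fun z _ => hone z
    · rintro s (hs | ⟨⟨n, x⟩, rfl⟩)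
      · rw [mem_singleton_iff.1 hs]; exact MeasurableSet.empty
      · exact measurableSet_prefix n x
  refine ext_of_generate_finite C hgen hpi ?_ htot
  rintro s (hs | ⟨⟨n, x⟩, rfl⟩)
  · rw [mem_singleton_iff.1 hs, measure_empty, measure_empty]
  · exact (h n x).trans (h' n x).symm

theorem law_zero_or_one (hv : v ≠ 0) (hμ : ∀ᵐ p ∂μ, Good v q p) {ℓ : Fin d → ℝ}
    (hℓ : 0 ≤ dot ℓ v) :
    law μ v q {X | Tendsto (fun n => dot ℓ (X n)) atTop atTop} = 0 ∨
      law μ v q {X | Tendsto (fun n => dot ℓ (X n)) atTop atTop} = 1 := by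
  obtain ⟨p₀, hp₀⟩ := hμ.exists
  have := isProbabilityMeasure_noise hv hp₀
  set Pω := Measure.infinitePi (fun _ : Site d => μ) with hPω
  set Pu := Measure.infinitePi (fun _ : ℕ => noise v q) with hPu
  set W : Set ((Site d → Dir d → ℝ) × (ℕ → Dir d × ℝ)) := {a | Esc v q ℓ 0 a.1 a.2}
  have hW : MeasurableSet W := measurableSet_esc v q ℓ 0
  set g : (ℕ → Dir d × ℝ) → ENNReal := fun u => Pω {ω | Esc v q ℓ 0 ω u} with hgdef
  have hg : Measurable g := measurable_measure_prodMk_right hW
  have h01 : ∀ u, g u = 0 ∨ g u = 1 := fun u => esc_zero_or_one v q μ hv hℓ u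
  have hinv : ∀ u, g u = g (fun k => u (k + 1)) := by
    intro u
    rcases h01 fun k => u (k + 1) with h0 | h1
    · rw [h0]
      refine le_antisymm ?_ zero_le
      refine le_trans (measure_mono (t := ⋃ y : Site d,
        {ω | Esc v q ℓ y ω fun k => u (k + 1)}) ?_) ?_
      · intro ω hω
        exact mem_iUnion.2 ⟨_, (esc_tail v q ℓ 0 ω u).1 hω⟩
      · refine le_trans (measure_iUnion_le _) (le_of_eq ?_)
        refine ENNReal.tsum_eq_zero.2 fun y => ?_
        rw [esc_prob_translate]; exact h0
    · rw [h1]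
      have hall : ∀ᵐ ω ∂Pω, ∀ y : Site d, Esc v q ℓ y ω fun k => u (k + 1) := by
        refine ae_all_iff.2 fun y => ?_
        refine (mem_ae_iff_prob_eq_one (measurableSet_esc_left v q ℓ y _)).2 ?_
        rw [hPω, esc_prob_translate]; exact h1
      exact (mem_ae_iff_prob_eq_one (measurableSet_esc_left v q ℓ 0 u)).1
        (hall.mono fun ω hω => (esc_tail v q ℓ 0 ω u).2 (hω _))
  have hinvn : ∀ (n : ℕ) u, g u = g (fun k => u (k + n)) := by
    intro n
    induction n with
    | zero => intro u; rfl
    | succ m ih =>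
      intro u
      rw [hinv u, ih]
      rfl
  set G := g ⁻¹' {1} with hG
  have hlaw : law μ v q {X | Tendsto (fun n => dot ℓ (X n)) atTop atTop} = ∫⁻ u, g u ∂Pu := by
    have hmA : MeasurableSet {X : ℕ → Site d | Tendsto (fun n => dot ℓ (X n)) atTop atTop} :=
      measurableSet_tendsto (l := atTop) atTop fun n =>
        (measurable_of_countable (dot ℓ)).comp (measurable_pi_apply n)
    rw [law, Measure.map_apply measurable_path hmA]
    exact Measure.prod_apply_symm hW
  have hgG : g = G.indicator 1 := by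
    funext u
    rcases h01 u with h | h <;> simp [hG, h]
  rw [hlaw, hgG, lintegral_indicator_one (hg (measurableSet_singleton 1))]
  refine zero_or_one_of_shift_invariant (noise v q) (hg (measurableSet_singleton 1)) fun F => ?_
  refine ⟨fun k => k + (F.sup id + 1), add_left_injective _, fun i hi hi' => ?_, ?_⟩
  · have : i + (F.sup id + 1) ≤ F.sup id := Finset.le_sup (f := id) hi'
    omega
  · refine EventuallyEq.of_eq (funext fun u => propext ?_)
    show g (fun k => u (k + (F.sup id + 1))) = 1 ↔ g u = 1
    rw [← hinvn _ u]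

end Vale.Agent.P147
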