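import Vale.Agent.P147.Defs

/-! P147: a joint sampler of all admissible rows from one noise variable. -/

namespace Vale.Agent.P147

open MeasureTheory Set
open scoped Classical

variable {d : ℕ}

lemma vec_injective : Function.Injective (vec (d := d)) := by
  rintro ⟨i, s⟩ ⟨j, t⟩ h
  have h1 := congrFun h i
  simp only [vec, Pi.single_eq_same] at h1
  by_cases hij : i = j
  · subst hij
    simp only [Pi.single_eq_same] at h1
    cases s <;> cases t <;> simp_all
  · rw [Pi.single_eq_of_ne hij] at h1
    cases s <;> simp at h1

lemma vec_bound (e : Dir d) (i : Fin d) : -1 ≤ vec e i ∧ vec e i ≤ 1 := by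
  by_cases h : i = e.1
  · subst h; simp only [vec, Pi.single_eq_same]; cases e.2 <;> simp
  · simp [vec, Pi.single_eq_of_ne h]

lemma no_chain {v : Site d} (hv : v ≠ 0) {e e₁ e₂ : Dir d} (h₁ : vec e₁ = vec e + v)
    (h₂ : vec e₂ = vec e - v) : False := by
  have hsum : vec e₁ e.1 + vec e₂ e.1 = 2 * vec e e.1 := by
    simp only [h₁, h₂, Pi.add_apply, Pi.sub_apply]; ring
  have b1 := vec_bound e₁ e.1
  have b2 := vec_bound e₂ e.1
  have he : vec e e.1 = 1 ∨ vec e e.1 = -1 := by
    simp only [vec, Pi.single_eq_same]; cases e.2 <;> simp
  have heq : vec e₁ e.1 = vec e e.1 := by omega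
  have hi : e₁.1 = e.1 := by
    by_contra hne
    have : vec e₁ e.1 = 0 := by simp [vec, Pi.single_eq_of_ne (Ne.symm hne)]
    omega
  have : vec e₁ = vec e := by
    funext j
    by_cases hj : j = e.1
    · rw [hj]; exact heq
    · simp [vec, Pi.single_eq_of_ne (hi ▸ hj), Pi.single_eq_of_ne hj]
  rw [this] at h₁
  exact hv (by simpa using h₁.symm)

/-- The steps differing from `e` by `-v`, `0` or `v`. -/
noncomputable def cls (v : Site d) (e : Dir d) : Finset (Dir d) :=
  Finset.univ.filter fun e' => vec e' = vec e ∨ vec e' = vec e + v ∨ vec e' = vec e - v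

/-- A row is admissible. -/
def Good (v : Site d) (q : Dir d → ℝ) (p : Dir d → ℝ) : Prop :=
  (∀ e, 0 ≤ p e) ∧ ∑ e, p e = 1 ∧ ∀ e, ∑ e' ∈ cls v e, p e' = q e

/-- The sampler. -/
noncomputable def step (v : Site d) (q : Dir d → ℝ) (p : Dir d → ℝ) (z : Dir d × ℝ) : Dir d :=
  if h : ∃ e', vec e' = vec z.1 - v then (if z.2 * q z.1 < p z.1 then z.1 else h.choose) else z.1

/-- Weight of a class representative. -/
noncomputable def top (v : Site d) (q : Dir d → ℝ) (e : Dir d) : ℝ :=
  if ∃ e', vec e' = vec e + v then 0 else q e

/-- The noise law. -/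
noncomputable def noise (v : Site d) (q : Dir d → ℝ) : Measure (Dir d × ℝ) :=
  (∑ e, ENNReal.ofReal (top v q e) • Measure.dirac e).prod (volume.restrict (Ico (0 : ℝ) 1))

lemma step_sub (v : Site d) (q : Dir d → ℝ) (p p' : Dir d → ℝ) (z : Dir d × ℝ) :
    vec (step v q p z) - vec (step v q p' z) = 0 ∨
      vec (step v q p z) - vec (step v q p' z) = v ∨
      vec (step v q p z) - vec (step v q p' z) = -v := by
  unfold step
  by_cases h : ∃ e', vec e' = vec z.1 - v
  · simp only [dif_pos h]
    split_ifs
    · simp
    · right; left; rw [h.choose_spec]; abel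
    · right; right; rw [h.choose_spec]; abel
    · simp
  · simp only [dif_neg h, sub_self, true_or]

lemma measurable_step (v : Site d) (q : Dir d → ℝ) :
    Measurable fun a : (Dir d → ℝ) × (Dir d × ℝ) => step v q a.1 a.2 := by
  have key : ∀ c : Dir d, Measurable fun b : (Dir d → ℝ) × ℝ => step v q b.1 (c, b.2) := by
    intro c
    unfold step
    by_cases h : ∃ e', vec e' = vec c - v
    · simp only [dif_pos h]
      exact Measurable.ite (measurableSet_lt (by fun_prop) (by fun_prop))
        (measurable_const (a := c)) (measurable_const (a := h.choose))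
    · simp only [dif_neg h]
      exact measurable_const
  have h2 : Measurable fun b : ((Dir d → ℝ) × ℝ) × Dir d => step v q b.1.1 (b.2, b.1.2) :=
    measurable_from_prod_countable_left fun c => key c
  exact h2.comp (f := fun a : (Dir d → ℝ) × (Dir d × ℝ) => ((a.1, a.2.2), a.2.1)) (by fun_prop)

lemma vol_lt {a b : ℝ} (ha : 0 ≤ a) (hab : a ≤ b) :
    ENNReal.ofReal b * (volume.restrict (Ico (0 : ℝ) 1)) {t | t * b < a} = ENNReal.ofReal a ∧
    ENNReal.ofReal b * (volume.restrict (Ico (0 : ℝ) 1)) {t | ¬ t * b < a} =
      ENNReal.ofReal (b - a) := by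
  rcases eq_or_lt_of_le (ha.trans hab) with hb | hb
  · have : a = 0 := le_antisymm (hb ▸ hab) ha
    simp [← hb, this]
  · have e1 : {t : ℝ | t * b < a} = Iio (a / b) := by
      ext t; simp [lt_div_iff₀ hb]
    have e2 : {t : ℝ | ¬ t * b < a} = Ici (a / b) := by
      ext t; simp [div_le_iff₀ hb]
    have hab' : a / b ≤ 1 := (div_le_one hb).2 hab
    have h0 : 0 ≤ a / b := div_nonneg ha hb.le
    rw [e1, e2, Measure.restrict_apply measurableSet_Iio, Measure.restrict_apply measurableSet_Ici]
    have i1 : Iio (a / b) ∩ Ico 0 1 = Ico 0 (a / b) := by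
      ext t; simp only [mem_inter_iff, mem_Iio, mem_Ico]
      exact ⟨fun h => ⟨h.2.1, h.1⟩, fun h => ⟨h.2, h.1, lt_of_lt_of_le h.2 hab'⟩⟩
    have i2 : Ici (a / b) ∩ Ico 0 1 = Ico (a / b) 1 := by
      ext t; simp only [mem_inter_iff, mem_Ici, mem_Ico]
      exact ⟨fun h => ⟨h.1, h.2.2⟩, fun h => ⟨h.1, le_trans h0 h.1, h.2⟩⟩
    rw [i1, i2, Real.volume_Ico, Real.volume_Ico, ← ENNReal.ofReal_mul hb.le,
      ← ENNReal.ofReal_mul hb.le]
    constructor <;> (congr 1; field_simp) <;> ring

lemma noise_step_eq {v : Site d} (hv : v ≠ 0) {q p : Dir d → ℝ} (hp : Good v q p) (e : Dir d) :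
    noise v q {z | step v q p z = e} = ENNReal.ofReal (p e) := by
  have hm : MeasurableSet {z : Dir d × ℝ | step v q p z = e} :=
    ((measurable_step v q).comp (measurable_prodMk_left (x := p))) (measurableSet_singleton e)
  rw [noise, Measure.prod_apply hm, lintegral_fintype]
  have hw : ∀ c : Dir d, (∑ e', ENNReal.ofReal (top v q e') • Measure.dirac e') {c} =
      ENNReal.ofReal (top v q c) := by
    intro c
    simp [Measure.dirac_apply' _ (measurableSet_singleton c), Set.indicator_apply]
  simp only [hw, preimage_ofPred_eq]
  obtain ⟨hpos, -, hsum⟩ := hp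
  by_cases hup : ∃ e', vec e' = vec e + v
  · obtain ⟨c, hc⟩ := hup
    rw [Finset.sum_eq_single c]
    · have hnup : ¬ ∃ e', vec e' = vec c + v := by
        rintro ⟨e₁, h₁⟩; exact no_chain hv h₁ (e₂ := e) (by rw [hc]; abel)
      have hdown : ∃ e', vec e' = vec c - v := ⟨e, by rw [hc]; abel⟩
      have hch : hdown.choose = e := vec_injective (by rw [hdown.choose_spec, hc]; abel)
      have hne : c ≠ e := by
        rintro rfl; exact hv (by simpa using hc.symm)
      have hcls : cls v c = {c, e} := by
        ext x
        simp only [cls, Finset.mem_filter, Finset.mem_univ, true_and, Finset.mem_insert,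
          Finset.mem_singleton]
        constructor
        · rintro (h | h | h)
          · exact Or.inl (vec_injective h)
          · exact (hnup ⟨x, h⟩).elim
          · exact Or.inr (vec_injective (by rw [h, hc]; abel))
        · rintro (rfl | rfl)
          · simp
          · right; right; rw [hc]; abel
      have hq : q c = p c + p e := by rw [← hsum c, hcls, Finset.sum_pair hne]
      have hset : {t | step v q p (c, t) = e} = {t | ¬ t * q c < p c} := by
        ext t
        simp only [step, dif_pos hdown, mem_ofPred_eq]
        by_cases ht : t * q c < p c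
        · simp [ht, hne]
        · simp [ht, hch]
      rw [top, if_neg hnup, hset, mul_comm,
        (vol_lt (hpos c) (show p c ≤ q c by linarith [hpos e])).2, hq]
      congr 1; ring
    · intro x _ hx
      by_cases hxe : x = e
      · subst hxe
        rw [top, if_pos (⟨c, hc⟩ : ∃ e', vec e' = vec x + v), ENNReal.ofReal_zero, mul_zero]
      · have : {t | step v q p (x, t) = e} = ∅ := by
          ext t
          simp only [step, mem_ofPred_eq, mem_empty_iff_false, iff_false]
          split_ifs with h h'
          · exact hxe
          · intro he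
            exact hx (vec_injective (by rw [hc, ← he, h.choose_spec]; abel))
          · exact hxe
        simp [this]
    · simp
  · rw [Finset.sum_eq_single e]
    · by_cases hdown : ∃ e', vec e' = vec e - v
      · have hne : e ≠ hdown.choose := by
          intro h; exact hv (by have := hdown.choose_spec; rw [← h] at this; simpa using this.symm)
        have hcls : cls v e = {e, hdown.choose} := by
          ext x
          simp only [cls, Finset.mem_filter, Finset.mem_univ, true_and, Finset.mem_insert,
            Finset.mem_singleton]
          constructor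
          · rintro (h | h | h)
            · exact Or.inl (vec_injective h)
            · exact (hup ⟨x, h⟩).elim
            · exact Or.inr (vec_injective (by rw [h, hdown.choose_spec]))
          · rintro (rfl | rfl)
            · simp
            · right; right; exact hdown.choose_spec
        have hq : q e = p e + p hdown.choose := by rw [← hsum e, hcls, Finset.sum_pair hne]
        have hset : {t | step v q p (e, t) = e} = {t | t * q e < p e} := by
          ext t
          simp only [step, dif_pos hdown, mem_ofPred_eq]
          by_cases ht : t * q e < p e <;> simp [ht, hne.symm]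
        rw [top, if_neg hup, hset, mul_comm,
          (vol_lt (hpos e) (show p e ≤ q e by linarith [hpos hdown.choose])).1]
      · have hcls : cls v e = {e} := by
          ext x
          simp only [cls, Finset.mem_filter, Finset.mem_univ, true_and, Finset.mem_singleton]
          constructor
          · rintro (h | h | h)
            · exact vec_injective h
            · exact (hup ⟨x, h⟩).elim
            · exact (hdown ⟨x, h⟩).elim
          · rintro rfl; simp
        have hq : q e = p e := by rw [← hsum e, hcls, Finset.sum_singleton]
        have hset : {t | step v q p (e, t) = e} = Set.univ := by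
          ext t; simp only [step, dif_neg hdown, mem_ofPred_eq, mem_univ]
        rw [top, if_neg hup, hset, hq]
        simp
    · intro x _ hx
      have : {t | step v q p (x, t) = e} = ∅ := by
        ext t
        simp only [step, mem_ofPred_eq, mem_empty_iff_false, iff_false]
        split_ifs with h h'
        · exact hx
        · intro he; exact hup ⟨x, by rw [← he, h.choose_spec]; abel⟩
        · exact hx
      simp [this]
    · simp

lemma noise_step_mem {v : Site d} (hv : v ≠ 0) {q p : Dir d → ℝ} (hp : Good v q p)
    (s : Finset (Dir d)) :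
    noise v q {z | step v q p z ∈ s} = ∑ e ∈ s, ENNReal.ofReal (p e) := by
  have h := sum_measure_preimage_singleton (μ := noise v q) s
    (f := step v q p) fun e _ =>
      ((measurable_step v q).comp (measurable_prodMk_left (x := p))) (measurableSet_singleton e)
  have : ∀ e ∈ s, noise v q (step v q p ⁻¹' {e}) = ENNReal.ofReal (p e) :=
    fun e _ => noise_step_eq hv hp e
  rw [Finset.sum_congr rfl this] at h
  exact h.symm

lemma isProbabilityMeasure_noise {v : Site d} (hv : v ≠ 0) {q p : Dir d → ℝ} (hp : Good v q p) :
    IsProbabilityMeasure (noise v q) := by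
  constructor
  have h := noise_step_mem hv hp Finset.univ
  simp only [Finset.mem_univ] at h
  rw [show {z : Dir d × ℝ | True} = Set.univ from rfl] at h
  rw [h, ← ENNReal.ofReal_sum_of_nonneg (fun e _ => hp.1 e), hp.2.1, ENNReal.ofReal_one]

end Vale.Agent.P147
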