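import Vale.Agent.P147.Noise
import Vale.Agent.P147.Mixing

/-! P147: the coupled walks, their order along `v`, and the quenched zero-one law for fixed
noise. -/

namespace Vale.Agent.P147

open MeasureTheory Set Filter
open scoped Topology Classical

variable {d : ℕ} (v : Site d) (q : Dir d → ℝ)

/-- The walk driven by the noise sequence `u`. -/
noncomputable def traj (ω : Site d → Dir d → ℝ) (u : ℕ → Dir d × ℝ) (x : Site d) : ℕ → Site d
  | 0 => x
  | n + 1 => traj ω u x n + vec (step v q (ω (traj ω u x n)) (u n))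

/-- Euclidean inner product with a lattice site. -/
noncomputable def dot (ℓ : Fin d → ℝ) (x : Site d) : ℝ := ∑ i, ℓ i * (x i : ℝ)

/-- Escape in direction `ℓ` of the walk started at `x`. -/
def Esc (ℓ : Fin d → ℝ) (x : Site d) (ω : Site d → Dir d → ℝ) (u : ℕ → Dir d × ℝ) : Prop :=
  Tendsto (fun n => dot ℓ (traj v q ω u x n)) atTop atTop

lemma dot_add (ℓ : Fin d → ℝ) (x y : Site d) : dot ℓ (x + y) = dot ℓ x + dot ℓ y := by
  simp [dot, mul_add, Finset.sum_add_distrib]

lemma dot_nsmul (ℓ : Fin d → ℝ) (k : ℕ) (x : Site d) : dot ℓ (k • x) = k * dot ℓ x := by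
  simp [dot, Finset.mul_sum, mul_left_comm]

lemma traj_order (ω : Site d → Dir d → ℝ) (u : ℕ → Dir d × ℝ) (x : Site d) :
    ∀ n, ∃ k : ℕ, traj v q ω u (x + v) n = traj v q ω u x n + k • v
  | 0 => ⟨1, by simp [traj]⟩
  | n + 1 => by
    obtain ⟨k, hk⟩ := traj_order ω u x n
    rcases Nat.eq_zero_or_pos k with rfl | hpos
    · exact ⟨0, by simp only [traj, hk, zero_smul, add_zero]⟩
    · obtain ⟨j, rfl⟩ : ∃ j, k = j + 1 := ⟨k - 1, by omega⟩
      rcases step_sub v q (ω (traj v q ω u (x + v) n)) (ω (traj v q ω u x n)) (u n) with h | h | h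
      · refine ⟨j + 1, ?_⟩
        simp only [traj]
        rw [show vec (step v q (ω (traj v q ω u (x + v) n)) (u n)) =
          vec (step v q (ω (traj v q ω u x n)) (u n)) from sub_eq_zero.1 h, hk]
        abel
      · refine ⟨j + 2, ?_⟩
        simp only [traj]
        rw [eq_add_of_sub_eq h, hk, succ_nsmul, succ_nsmul, succ_nsmul]
        abel
      · refine ⟨j, ?_⟩
        simp only [traj]
        rw [eq_add_of_sub_eq h, hk, succ_nsmul]
        abel

lemma esc_mono {ℓ : Fin d → ℝ} (hℓ : 0 ≤ dot ℓ v) {x : Site d} {ω : Site d → Dir d → ℝ}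
    {u : ℕ → Dir d × ℝ} (h : Esc v q ℓ x ω u) : Esc v q ℓ (x + v) ω u := by
  refine tendsto_atTop_mono (fun n => ?_) h
  obtain ⟨k, hk⟩ := traj_order v q ω u x n
  rw [hk, dot_add, dot_nsmul]
  have : 0 ≤ (k : ℝ) * dot ℓ v := mul_nonneg (Nat.cast_nonneg k) hℓ
  linarith

lemma traj_translate (ω : Site d → Dir d → ℝ) (u : ℕ → Dir d × ℝ) (x : Site d) :
    ∀ n, traj v q ω u x n = x + traj v q (fun z => ω (z + x)) u 0 n
  | 0 => by simp [traj]
  | n + 1 => by
    simp only [traj]
    rw [traj_translate ω u x n, add_comm (traj v q (fun z => ω (z + x)) u 0 n) x]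
    abel

lemma esc_translate (ℓ : Fin d → ℝ) (x : Site d) (ω : Site d → Dir d → ℝ)
    (u : ℕ → Dir d × ℝ) : Esc v q ℓ x ω u ↔ Esc v q ℓ 0 (fun z => ω (z + x)) u := by
  unfold Esc
  simp only [traj_translate v q ω u x, dot_add]
  constructor
  · intro h
    simpa using tendsto_atTop_add_const_left _ (-dot ℓ x) h
  · exact fun h => tendsto_atTop_add_const_left _ _ h

lemma traj_tail (ω : Site d → Dir d → ℝ) (u : ℕ → Dir d × ℝ) (x : Site d) :
    ∀ n, traj v q ω u x (n + 1) =
      traj v q ω (fun k => u (k + 1)) (x + vec (step v q (ω x) (u 0))) n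
  | 0 => by simp [traj]
  | n + 1 => by rw [traj, traj_tail ω u x n]; rfl

lemma esc_tail (ℓ : Fin d → ℝ) (x : Site d) (ω : Site d → Dir d → ℝ) (u : ℕ → Dir d × ℝ) :
    Esc v q ℓ x ω u ↔
      Esc v q ℓ (x + vec (step v q (ω x) (u 0))) ω (fun k => u (k + 1)) := by
  unfold Esc
  conv_lhs => rw [← tendsto_add_atTop_iff_nat 1]
  simp only [traj_tail]

lemma measurable_traj (x : Site d) :
    ∀ n, Measurable fun a : (Site d → Dir d → ℝ) × (ℕ → Dir d × ℝ) => traj v q a.1 a.2 x n
  | 0 => by simp only [traj]; exact measurable_const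
  | n + 1 => by
    have hT := measurable_traj x n
    have hrow : Measurable fun a : (Site d → Dir d → ℝ) × (ℕ → Dir d × ℝ) =>
        a.1 (traj v q a.1 a.2 x n) := by
      have h2 : Measurable fun b : (Site d → Dir d → ℝ) × Site d => b.1 b.2 :=
        measurable_from_prod_countable_left fun y => measurable_pi_apply y
      exact h2.comp (measurable_fst.prodMk hT)
    simp only [traj]
    exact hT.add ((measurable_of_countable vec).comp
      ((measurable_step v q).comp (hrow.prodMk ((measurable_pi_apply n).comp measurable_snd))))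

lemma measurableSet_esc (ℓ : Fin d → ℝ) (x : Site d) :
    MeasurableSet {a : (Site d → Dir d → ℝ) × (ℕ → Dir d × ℝ) | Esc v q ℓ x a.1 a.2} :=
  measurableSet_tendsto (l := atTop) atTop fun n =>
    (measurable_of_countable (dot ℓ)).comp (measurable_traj v q x n)

lemma measurableSet_esc_left (ℓ : Fin d → ℝ) (x : Site d) (u : ℕ → Dir d × ℝ) :
    MeasurableSet {ω : Site d → Dir d → ℝ | Esc v q ℓ x ω u} :=
  (measurable_prodMk_right : Measurable fun ω : Site d → Dir d → ℝ => (ω, u))
    (measurableSet_esc v q ℓ x)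

variable (μ : Measure (Dir d → ℝ)) [IsProbabilityMeasure μ]

lemma esc_prob_translate (ℓ : Fin d → ℝ) (x : Site d) (u : ℕ → Dir d × ℝ) :
    Measure.infinitePi (fun _ : Site d => μ) {ω | Esc v q ℓ x ω u} =
      Measure.infinitePi (fun _ : Site d => μ) {ω | Esc v q ℓ 0 ω u} := by
  have hmp := measurePreserving_reindex μ (σ := fun z : Site d => z + x) (add_left_injective x)
  have hE := measurableSet_esc_left v q ℓ 0 u
  rw [← hmp.measure_preimage hE.nullMeasurableSet]
  congr 1
  ext ω
  exact esc_translate v q ℓ x ω u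

theorem esc_zero_or_one (hv : v ≠ 0) {ℓ : Fin d → ℝ} (hℓ : 0 ≤ dot ℓ v)
    (u : ℕ → Dir d × ℝ) :
    Measure.infinitePi (fun _ : Site d => μ) {ω | Esc v q ℓ 0 ω u} = 0 ∨
      Measure.infinitePi (fun _ : Site d => μ) {ω | Esc v q ℓ 0 ω u} = 1 := by
  set E := {ω : Site d → Dir d → ℝ | Esc v q ℓ 0 ω u} with hEdef
  set P := Measure.infinitePi (fun _ : Site d => μ)
  have hm := fun x => measurableSet_esc_left v q ℓ x u
  have hstep : ∀ x : Site d, {ω | Esc v q ℓ x ω u} =ᵐ[P] {ω | Esc v q ℓ (x + v) ω u} := by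
    intro x
    refine ae_eq_of_subset_of_measure_ge (fun ω h => esc_mono v q hℓ h) ?_
      (hm x).nullMeasurableSet (measure_ne_top _ _)
    simp only [P, esc_prob_translate v q μ ℓ (x + v) u, esc_prob_translate v q μ ℓ x u, le_refl]
  have hall : ∀ k : ℕ, {ω | Esc v q ℓ (k • v) ω u} =ᵐ[P] E := by
    intro k
    induction k with
    | zero => simp only [zero_smul]; exact EventuallyEq.rfl
    | succ j ih => rw [succ_nsmul]; exact (hstep (j • v)).symm.trans ih
  refine zero_or_one_of_shift_invariant μ (hm 0) fun F => ?_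
  have hinj : Function.Injective fun k : ℕ => k • v := by
    intro a b h
    obtain ⟨i, hi⟩ : ∃ i, v i ≠ 0 := by
      by_contra hc; push Not at hc; exact hv (funext hc)
    have := congrFun h i
    simpa [hi] using this
  obtain ⟨y, ⟨k, rfl⟩, hk⟩ := (Set.infinite_range_of_injective hinj).exists_notMem_finset
    ((F ×ˢ F).image fun a => a.2 - a.1)
  refine ⟨fun z => z + k • v, add_left_injective _, fun i hi hi' => hk ?_, ?_⟩
  · exact Finset.mem_image.2 ⟨(i, i + k • v), Finset.mem_product.2 ⟨hi, hi'⟩, by simp⟩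
  · have : (fun ω z => ω (z + k • v)) ⁻¹' E = {ω : Site d → Dir d → ℝ | Esc v q ℓ (k • v) ω u} := by
      ext ω; exact (esc_translate v q ℓ (k • v) ω u).symm
    rw [this]; exact hall k

end Vale.Agent.P147
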